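import Vale.Agent.P042U.Loc

set_option autoImplicit false

/-!
P042, exponent depending on the degree only: auxiliary polynomials whose content is attained along
all multiples of one modulus.
-/

namespace Vale.Agent.P042U

open Polynomial Vale.Agent.P042

/-- divisibility of integers, prime power by prime power -/
theorem dvd_of_pp {n : ℕ} {x : ℤ} (hn : n ≠ 0)
    (H : ∀ p : ℕ, p.Prime → (p : ℤ) ^ (n.factorization p) ∣ x) : (n : ℤ) ∣ x := by
  rw [← Int.natAbs_dvd_natAbs, Int.natAbs_natCast, Nat.dvd_iff_prime_pow_dvd_dvd]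
  intro p k hp hk'
  have h1 : k ≤ n.factorization p := (hp.pow_dvd_iff_le_factorization hn).1 hk'
  have h4 := Int.natAbs_dvd_natAbs.2 ((pow_dvd_pow _ h1).trans (H p hp))
  rwa [Int.natAbs_pow, Int.natAbs_natCast] at h4

/-- auxiliary polynomials with the exact content `M` along the multiples of `d0` -/
theorem exists_aux1 (h : ℤ[X]) (hk : 1 ≤ h.natDegree) (hint : Intersective h) :
    ∃ (lam : ℕ → ℕ) (r : ℕ → ℤ) (H : ℕ → ℤ[X]) (M d0 : ℕ), AuxData h lam r H M ∧ 1 ≤ d0 ∧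
      ∀ e : ℕ, 1 ≤ e → ∀ j, (M : ℤ) ∣ (H (d0 * e)).coeff j := by
  have hh : h ≠ 0 := by
    rintro rfl
    simp only [natDegree_zero, nonpos_iff_eq_zero, one_ne_zero] at hk
  obtain ⟨R0, hR0, HL⟩ := aux_local1 h hh hint
  have HL' : ∀ p : ℕ, ∃ (m s : ℕ) (a : ℕ → ℤ), p.Prime → (1 ≤ m ∧ m ≤ h.natDegree ∧
      (p : ℤ) ^ s ∣ R0 ∧
      (∀ v w : ℕ, v ≤ w → (p : ℤ) ^ v ∣ a w - a v) ∧
      (∀ (v : ℕ) (r d : ℤ), (p : ℤ) ^ v ∣ r - a v → ¬ (p : ℤ) ∣ d →
        (∀ j, (p : ℤ) ^ (v * m) ∣ (h.comp (C r + C ((p : ℤ) ^ v * d) * X)).coeff j) ∧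
        (s ≤ v → ∀ j, (p : ℤ) ^ (v * m + s) ∣ (h.comp (C r + C ((p : ℤ) ^ v * d) * X)).coeff j) ∧
        (∀ (u : ℤ) (H : ℤ[X]), ¬ (p : ℤ) ∣ u →
          C ((p : ℤ) ^ (v * m) * u) * H = h.comp (C r + C ((p : ℤ) ^ v * d) * X) →
          ∀ e : ℕ, (∀ j : ℕ, 1 ≤ j → (p : ℤ) ^ e ∣ H.coeff j) → e ≤ s))) := by
    intro p
    by_cases hp : p.Prime
    · obtain ⟨m, s, a, hma⟩ := HL p hp
      exact ⟨m, s, a, fun _ => hma⟩
    · exact ⟨0, 0, fun _ => 0, fun hp' => absurd hp' hp⟩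
  choose m s a hma using HL'
  have HC : ∀ d : ℕ, ∃ r : ℤ, 1 ≤ d → (-(d : ℤ) < r ∧ r ≤ 0 ∧
      ∀ p : ℕ, p.Prime → (p : ℤ) ^ (d.factorization p) ∣ r - a p (d.factorization p)) := by
    intro d
    by_cases hd : 1 ≤ d
    · obtain ⟨r, hr⟩ := aux_crt a d hd
      exact ⟨r, fun _ => hr⟩
    · exact ⟨0, fun hd' => absurd hd' hd⟩
  choose r hr using HC
  have hdec : ∀ d : ℕ, 1 ≤ d → ∀ p : ℕ, p.Prime →
      ∃ d' : ℤ, ¬ (p : ℤ) ∣ d' ∧ (d : ℤ) = (p : ℤ) ^ (d.factorization p) * d' := by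
    intro d hd p hp
    refine ⟨((d / p ^ (d.factorization p) : ℕ) : ℤ), ?_, ?_⟩
    · intro hdv
      exact Nat.not_dvd_ordCompl hp (by omega : d ≠ 0) (by exact_mod_cast hdv)
    · exact_mod_cast (Nat.ordProj_mul_ordCompl_eq_self d p).symm
  have hcoef : ∀ d : ℕ, 1 ≤ d → C ((auxLam m d : ℕ) : ℤ) ∣ h.comp (C (r d) + C (d : ℤ) * X) := by
    intro d hd
    rw [C_dvd_iff_dvd_coeff]
    intro j
    refine dvd_of_pp (auxLam_ne_zero m d) fun p hp => ?_
    obtain ⟨d', hd', hdd⟩ := hdec d hd p hp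
    have h2 := ((hma p hp).2.2.2.2 (d.factorization p) (r d) d' ((hr d hd).2.2 p hp) hd').1 j
    rw [← hdd] at h2
    rwa [auxLam_factorization, mul_comm]
  have HH : ∀ d : ℕ, ∃ H : ℤ[X], 1 ≤ d →
      C ((auxLam m d : ℕ) : ℤ) * H = h.comp (C (r d) + C (d : ℤ) * X) := by
    intro d
    by_cases hd : 1 ≤ d
    · obtain ⟨H, hH⟩ := hcoef d hd
      exact ⟨H, fun _ => hH.symm⟩
    · exact ⟨0, fun hd' => absurd hd' hd⟩
  choose H hH using HH
  obtain ⟨d0, hd0⟩ : ∃ d0 : ℕ, d0 = R0.natAbs := ⟨_, rfl⟩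
  have hd01 : 1 ≤ d0 := by
    rw [hd0]
    exact Int.natAbs_pos.2 hR0
  have hsd : ∀ p : ℕ, p.Prime → s p ≤ d0.factorization p := by
    intro p hp
    have h1 := Int.natAbs_dvd_natAbs.2 (hma p hp).2.2.1
    rw [Int.natAbs_pow, Int.natAbs_natCast, ← hd0] at h1
    exact (hp.pow_dvd_iff_le_factorization (by omega)).1 h1
  -- the content `M = ∏ p ^ s p`
  obtain ⟨M, hM0, hM⟩ : ∃ M : ℕ, M ≠ 0 ∧ ∀ p : ℕ, p.Prime → M.factorization p = s p := by
    obtain ⟨f, hf⟩ : ∃ f : ℕ →₀ ℕ, f = Finsupp.onFinset d0.primeFactors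
        (fun p => if p.Prime then s p else 0) (by
          intro p hp
          by_cases hpp : p.Prime
          · rw [if_pos hpp] at hp
            have h1 := hsd p hpp
            rw [← Nat.support_factorization, Finsupp.mem_support_iff]
            omega
          · exact absurd (if_neg hpp) hp) := ⟨_, rfl⟩
    have hfp : ∀ q ∈ f.support, q.Prime := by
      intro q hq
      rw [hf] at hq
      exact Nat.prime_of_mem_primeFactors (Finsupp.support_onFinset_subset hq)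
    refine ⟨f.prod (· ^ ·), ?_, fun p hp => ?_⟩
    · rw [Finsupp.prod]
      exact Finset.prod_ne_zero_iff.2 fun q hq => pow_ne_zero _ (hfp q hq).ne_zero
    · rw [Nat.prod_pow_factorization_eq_self hfp, hf, Finsupp.onFinset_apply, if_pos hp]
  have hlam : ∀ d p : ℕ, ((auxLam m d : ℕ) : ℤ) = (p : ℤ) ^ (d.factorization p * m p) *
      ((auxLam m d / p ^ ((auxLam m d).factorization p) : ℕ) : ℤ) := by
    intro d p
    have := Nat.ordProj_mul_ordCompl_eq_self (auxLam m d) p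
    rw [auxLam_factorization, mul_comm (m p)] at this ⊢
    exact_mod_cast this.symm
  have hu : ∀ d p : ℕ, p.Prime →
      ¬ (p : ℤ) ∣ ((auxLam m d / p ^ ((auxLam m d).factorization p) : ℕ) : ℤ) := by
    intro d p hp hdv
    exact Nat.not_dvd_ordCompl hp (auxLam_ne_zero m d) (by exact_mod_cast hdv)
  refine ⟨auxLam m, r, H, M, d0, ⟨Nat.one_le_iff_ne_zero.2 hM0, hH, ?_, ?_, ?_, ?_, ?_⟩, hd01, ?_⟩
  · intro d q hd hq
    apply Nat.eq_of_factorization_eq (auxLam_ne_zero m _)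
      (mul_ne_zero (auxLam_ne_zero m _) (auxLam_ne_zero m _))
    intro p
    rw [Nat.factorization_mul (auxLam_ne_zero m _) (auxLam_ne_zero m _), Finsupp.add_apply,
      auxLam_factorization, auxLam_factorization, auxLam_factorization,
      Nat.factorization_mul (by omega) (by omega), Finsupp.add_apply, mul_add]
  · intro d hd
    constructor
    · rw [← Nat.factorization_le_iff_dvd (by omega) (auxLam_ne_zero m _)]
      intro p
      rw [auxLam_factorization]
      by_cases hp : p.Prime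
      · have := (hma p hp).1
        nlinarith only [this]
      · rw [Nat.factorization_eq_zero_of_not_prime _ hp]
        exact Nat.zero_le _
    · rw [← Nat.factorization_le_iff_dvd (auxLam_ne_zero m _) (pow_ne_zero _ (by omega))]
      intro p
      rw [auxLam_factorization, Nat.factorization_pow, Finsupp.smul_apply, smul_eq_mul]
      by_cases hp : p.Prime
      · exact Nat.mul_le_mul_right _ (hma p hp).2.1
      · rw [Nat.factorization_eq_zero_of_not_prime _ hp]
        simp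
  · intro d hd
    exact ⟨(hr d hd).1, (hr d hd).2.1⟩
  · intro d q hd hq
    have hdq : 1 ≤ d * q := Nat.one_le_iff_ne_zero.2 (mul_ne_zero (by omega) (by omega))
    refine dvd_of_pp (by omega) fun p hp => ?_
    have h2 : d.factorization p ≤ (d * q).factorization p := by
      rw [Nat.factorization_mul (by omega) (by omega), Finsupp.add_apply]
      exact Nat.le_add_right _ _
    have h3 := (hr d hd).2.2 p hp
    have h4 := (hr (d * q) hdq).2.2 p hp
    have h5 := (hma p hp).2.2.2.1 _ _ h2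
    have h7 := dvd_sub (dvd_add ((pow_dvd_pow _ h2).trans h4) h5) h3
    rw [sub_add_sub_cancel, sub_sub_sub_cancel_right] at h7
    exact h7
  · intro d hd g hg
    rw [← Int.natAbs_dvd_natAbs, Int.natAbs_natCast, Nat.dvd_iff_prime_pow_dvd_dvd]
    intro p e hp he
    obtain ⟨d', hd', hdd⟩ := hdec d hd p hp
    have h1 := ((hma p hp).2.2.2.2 (d.factorization p) (r d) d' ((hr d hd).2.2 p hp) hd').2.2
      _ (H d) (hu d p hp) (by rw [← hlam d p, ← hdd]; exact hH d hd) e (by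
        intro j hj
        have h2 : ((p ^ e : ℕ) : ℤ) ∣ g := Int.natCast_dvd.2 he
        rw [Nat.cast_pow] at h2
        exact h2.trans (hg j hj))
    rw [hp.pow_dvd_iff_le_factorization hM0, hM p hp]
    exact h1
  · intro e he j
    have hd : 1 ≤ d0 * e := Nat.one_le_iff_ne_zero.2 (mul_ne_zero (by omega) (by omega))
    refine dvd_of_pp hM0 fun p hp => ?_
    obtain ⟨d', hd', hdd⟩ := hdec (d0 * e) hd p hp
    have h2 : s p ≤ (d0 * e).factorization p := by
      rw [Nat.factorization_mul (by omega) (by omega), Finsupp.add_apply]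
      exact (hsd p hp).trans (Nat.le_add_right _ _)
    have h1 := ((hma p hp).2.2.2.2 ((d0 * e).factorization p) (r (d0 * e)) d'
      ((hr _ hd).2.2 p hp) hd').2.1 h2 j
    rw [← hdd, ← hH _ hd, coeff_C_mul, hlam (d0 * e) p, pow_add, mul_assoc,
      mul_dvd_mul_iff_left (pow_ne_zero _ (by exact_mod_cast hp.ne_zero))] at h1
    rw [hM p hp]
    exact (((Nat.prime_iff_prime_int.1 hp).coprime_iff_not_dvd.2 (hu _ p hp)).pow_left).dvd_of_dvd_mul_left h1

end Vale.Agent.P042U
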