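import Vale.Agent.P042U.St
import Vale.Agent.P042U.Red
import Vale.Agent.P042.H860.Fin

set_option autoImplicit false

/-!
P042: power saving with an exponent depending on the degree only.
-/

namespace Vale.Agent.P042U

open Polynomial Finset Vale.Agent.P042 Vale.Agent.P042.SS Vale.Agent.P042.H74
  Vale.Agent.P042.H739 Vale.Agent.P042.H362 Vale.Agent.P042.H359 Vale.Agent.P042.H387

/-- power saving with an exponent depending on the degree and on the content bound only -/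
def FinalR : Prop :=
  ∀ k R : ℕ, 2 ≤ k → 1 ≤ R → ∃ c : ℝ, 0 < c ∧
    ∀ (h : ℤ[X]) (lam0 : ℕ → ℕ) (r : ℕ → ℤ) (Hh : ℕ → ℤ[X]), AuxData h lam0 r Hh R →
      h.natDegree = k → 0 < h.leadingCoeff →
      ∃ C : ℝ, 0 < C ∧ ∀ N : ℕ, 1 ≤ N → (rMax h N : ℝ) ≤ C * (N : ℝ) ^ (1 - c)

/-- the uniform theorem from its three parts -/
theorem finalR_of {GW : GwTy} {St : StTy} (hState : STATEU St) (hAN : ANU GW)
    (hLow : LOWERF GW St) : FinalR := by
  classical
  intro k R hk2 hR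
  obtain ⟨thA, hthA, hAN1⟩ := hAN k hk2
  obtain ⟨th0, hth0e⟩ : ∃ x : ℝ, x = min thA (1 / 16) := ⟨_, rfl⟩
  have hth0 : 0 < th0 := by
    rw [hth0e]
    exact lt_min hthA (by norm_num)
  have hth016 : th0 ≤ 1 / 16 := by rw [hth0e]; exact min_le_right _ _
  have hth0A : th0 ≤ thA := by rw [hth0e]; exact min_le_left _ _
  obtain ⟨c1, κ1, hc1, hκ1, Pa, hAN2⟩ := hAN1 th0 hth0 hth0A
  have hkr : (1 : ℝ) ≤ k := by exact_mod_cast (by omega : 1 ≤ k)
  obtain ⟨κ0, hκ0⟩ : ∃ x : ℝ, x = min (c1 / 4) (min (κ1 / (4 * k)) (1 / 8)) := ⟨_, rfl⟩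
  have hκ0pos : 0 < κ0 := by
    rw [hκ0]
    refine lt_min (by positivity) (lt_min (by positivity) (by norm_num))
  have hκ0c : κ0 ≤ c1 / 4 := by rw [hκ0]; exact min_le_left _ _
  have hκ0k : κ0 ≤ κ1 / (4 * k) := by
    rw [hκ0]; exact (min_le_right _ _).trans (min_le_left _ _)
  have hκ08 : κ0 ≤ 1 / 8 := by rw [hκ0]; exact (min_le_right _ _).trans (min_le_right _ _)
  obtain ⟨κ, hκ, hκκ0, Pb, hLow2⟩ := hLow k R hk2 hR th0 κ0 hth0 hth016 hκ0pos
  obtain ⟨c, hc, Pc, hState2⟩ := hState k R κ hk2 hR hκ (hκκ0.trans hκ08)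
  refine ⟨c, hc, fun h lam0 r Hh hAux hk hpos => ?_⟩
  obtain ⟨P0, hfin⟩ := core_of hAux hk hk2 hpos hR hc1 hκ1 hκ hκκ0 hκ0c hκ0k
    (fun P => c * P) (fun P f N' G => St k R f κ P N' G) hAN2 hLow2
    (hState2 h lam0 r Hh hAux hk hpos)
  refine ⟨Real.exp (c * max P0 0), Real.exp_pos _, fun N hN => ?_⟩
  have hN0 : (0 : ℝ) < N := by exact_mod_cast hN
  have hNpow : (N : ℝ) ^ (1 - c) = Real.exp (-(c * Real.log N)) * N := by
    rw [Real.rpow_sub hN0, Real.rpow_one, Real.rpow_def_of_pos hN0, Real.exp_neg,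
      mul_comm (Real.log N) c]
    field_simp
  rw [hNpow]
  rcases lt_or_ge (Real.log N) (max P0 0) with hlt | hge
  · have h1 : (rMax h N : ℝ) ≤ N := by
      have h2 : rMax h N ≤ N := by
        unfold rMax
        refine Finset.sup_le fun A0 hA0 => ?_
        rw [mem_filter, mem_powerset] at hA0
        have h3 := Finset.card_le_card hA0.1
        rw [Int.card_Icc] at h3
        omega
      exact_mod_cast h2
    have h3 : (1 : ℝ) ≤ Real.exp (c * max P0 0) * Real.exp (-(c * Real.log N)) := by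
      rw [← Real.exp_add]
      apply Real.one_le_exp
      have h4 : c * Real.log N ≤ c * max P0 0 := mul_le_mul_of_nonneg_left hlt.le hc.le
      linarith
    calc (rMax h N : ℝ) ≤ N := h1
      _ = 1 * N := (one_mul _).symm
      _ ≤ (Real.exp (c * max P0 0) * Real.exp (-(c * Real.log N))) * N :=
          mul_le_mul_of_nonneg_right h3 hN0.le
      _ = _ := by ring
  · have h1 := hfin N hN ((le_max_left _ _).trans hge)
    have h2 : (1 : ℝ) ≤ Real.exp (c * max P0 0) :=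
      Real.one_le_exp (mul_nonneg hc.le (le_max_right _ _))
    calc (rMax h N : ℝ) ≤ N * Real.exp (-(c * Real.log N)) := h1
      _ = 1 * (Real.exp (-(c * Real.log N)) * N) := by ring
      _ ≤ Real.exp (c * max P0 0) * (Real.exp (-(c * Real.log N)) * N) :=
          mul_le_mul_of_nonneg_right h2 (by positivity)

/-- the uniform theorem for a fixed content bound -/
theorem finalR : FinalR := by
  obtain ⟨C1, hC1, cs, hcs, thk, hthk, thr, thb, hthb, hloc⟩ := H860.locF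
  obtain ⟨par, h1, h2, h3, h4, h5⟩ := constants C1 (fun k _ => by linarith [hC1 k]) cs hcs thk
    hthk thr thb hthb Q0s
  exact finalR_of (St := StF par (mkFam C1 cs par))
    (stateU par (mkFam C1 cs par) (fun k R κ hk _ hκ _ => h2 k R κ hk hκ)
      (fun k R κ hk _ hκ _ => h3 k R κ hk hκ))
    (anu_k C1 fun k => by linarith [hC1 k])
    (lowerF_of (K0f := K0fun par) (Q0f := Q0fun Q0s par) hC1 (fun k R _ _ K00 => h4 k R K00)
      (fun _ _ _ => le_rfl) h5 (hloc par h1))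

/-- **power saving with an exponent depending on the degree only** -/
theorem final_degree (k : ℕ) (hk : 2 ≤ k) : ∃ c : ℝ, 0 < c ∧ ∀ h : ℤ[X], h.natDegree = k →
    0 < h.leadingCoeff → Intersective h →
    ∃ C : ℝ, 0 < C ∧ ∀ N : ℕ, 1 ≤ N → (rMax h N : ℝ) ≤ C * (N : ℝ) ^ (1 - c) := by
  obtain ⟨c, hc, H⟩ := finalR k 1 hk le_rfl
  refine ⟨c, hc, fun h hdeg hpos hint => ?_⟩
  obtain ⟨g, lam, r, Hh, L, hA, hgd, hgp, hL, hle⟩ := exists_one h (by omega) hpos hint
  obtain ⟨C, hC, hCN⟩ := H g lam r Hh hA (hgd.trans hdeg) hgp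
  have hL0 : (0 : ℝ) < L := by exact_mod_cast hL
  refine ⟨L * C, by positivity, fun N hN => ?_⟩
  have h1 : (rMax h N : ℝ) ≤ L * rMax g N := by exact_mod_cast hle N
  rw [mul_assoc]
  exact h1.trans (mul_le_mul_of_nonneg_left (hCN N hN) hL0.le)

end Vale.Agent.P042U
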