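import Vale.Agent.P042.H972.StAll

set_option autoImplicit false

/-!
P042, exponent depending on the degree only: the state theorem with the exponent `c` chosen before
the polynomial.
-/

namespace Vale.Agent.P042U

open Polynomial Finset Vale.Agent.P042 Vale.Agent.P042.H599 Vale.Agent.P042.H945
  Vale.Agent.P042.H739 Vale.Agent.P042.H972 Vale.Agent.P042.H383 Vale.Agent.P042.H74
  Vale.Agent.P042.SS Vale.Agent.P042.H362

/-- from a dense set without differences to an extremal state; `c` depends on `k, R, κ` only -/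
def STATEU (St : StTy) : Prop :=
  ∀ (k R : ℕ) (κ : ℝ), 2 ≤ k → 1 ≤ R → 0 < κ → κ ≤ 1 / 8 → ∃ c : ℝ, 0 < c ∧ ∃ P0 : ℝ,
  ∀ (h : ℤ[X]) (lam0 : ℕ → ℕ) (r : ℕ → ℤ) (Hh : ℕ → ℤ[X]),
    AuxData h lam0 r Hh R → h.natDegree = k → 0 < h.leadingCoeff → ∀ P : ℝ, P0 ≤ P →
    STat h Hh κ (c * P) P (fun f N' G => St k R f κ P N' G)

/-- **the state theorem, uniform in the polynomial** -/
theorem stateU {κ' : Type} (par : ℕ → ℕ → ℝ → FP) (fam : ℕ → ℕ → ℝ → ℝ → H599.Fam κ')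
    (hpar : ∀ (k R : ℕ) (κ : ℝ), 2 ≤ k → 1 ≤ R → 0 < κ → κ ≤ 1 / 8 → FPOk (par k R κ) k κ)
    (hfam : ∀ (k R : ℕ) (κ : ℝ), 2 ≤ k → 1 ≤ R → 0 < κ → κ ≤ 1 / 8 →
      FamP (par k R κ) k R (fam k R κ)) : STATEU (StF par fam) := by
  intro k R κ hk2 hR1 hκ hκ8
  obtain ⟨q, hqd⟩ : ∃ q, q = par k R κ := ⟨_, rfl⟩
  have hq := hpar k R κ hk2 hR1 hκ hκ8
  have hf := hfam k R κ hk2 hR1 hκ hκ8
  rw [← hqd] at hq hf
  have hk1 : (1 : ℝ) ≤ k := by exact_mod_cast (by omega : 1 ≤ k)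
  have hg0 := hq.g0
  have hbe0 := hq.be0
  have hc1p := hq.kp0
  have hc1b := hq.kpκ
  have he0 : 0 < q.be / (4 * k) := by positivity
  obtain ⟨A, Pf, _, hfam'⟩ := hf.ev
  obtain ⟨Po, hok⟩ := ok_QP hq.C11 k hq.g0 hq.g1 hq.cr
  obtain ⟨ca, hca, Hnum⟩ := num_pw (s := q.g / 5) (A := 2) (by positivity) (by norm_num) hκ he0
    hc1p
  obtain ⟨c, hc⟩ : ∃ c, c = min ca 1 := ⟨_, rfl⟩
  have hcp : 0 < c := by rw [hc]; exact lt_min hca one_pos
  have hc1 : c ≤ 1 := by rw [hc]; exact min_le_right _ _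
  obtain ⟨Pb, hnum⟩ := Hnum c hcp (by rw [hc]; exact min_le_left _ _)
  obtain ⟨P1, h1⟩ := atEv q k R κ c (fam k R κ) hq hf hR1 hκ hκ8 hcp hc1
  obtain ⟨P2, h2⟩ := mfEv q k R κ c (fam k R κ) hq hf hR1 hκ hκ8 hcp hc1
  obtain ⟨P3, h3⟩ := qlEv q k R κ c (fam k R κ) hq hf hR1 hκ hκ8 hcp hc1
  refine ⟨c, hcp, max (max (max Pf (max Po 2)) Pb) (max P1 (max P2 P3)),
    fun h lam r Hh hAux hdeg hpos P hP => ?_⟩
  simp only [max_le_iff] at hP
  obtain ⟨⟨⟨hPf, hPo, hP2⟩, hPb⟩, hP1', hP2', hP3'⟩ := hP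
  have hP0 : 0 < P := by linarith
  obtain ⟨-, hPP, hnum⟩ := hnum P hPb
  have q1 : Ok (QPF q k R P (fam k R κ P) Hh lam) := by
    refine hok P hPo κ' (fam k R κ P) h lam r Hh R hAux (by omega) hdeg (WF q k R P) ?_ (MmP P)
      (hfam' P hPf).1 (MmP_ge P) (q.be / (4 * k)) (q.kp * P) ?_ ?_ ?_ ?_
    · intro p hp
      obtain ⟨h1, h2, h3, h4, h5⟩ := (mem_WF hP0.le).1 hp
      exact ⟨h1, h3, h4.le, h5⟩
    · positivity
    · rw [div_le_one (by positivity)]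
      have h1 := hq.beb
      have h2 := hq.b1
      linarith
    · positivity
    · exact mul_le_mul_of_nonneg_right hq.kpg hP0.le
  obtain ⟨n0, n1, n2, n3⟩ := hnum (2 * P ^ (1 - q.g / 5)) le_rfl
  have hN : Num (QPF q k R P (fam k R κ P) Hh lam) κ (c * P) P :=
    ⟨n0, n1, n2, MmP_le_exp hP2, n3⟩
  refine stat_of q1 hAux hN (fun f N' mu => FF6 par fam k R f κ P N' mu) ?_
  intro N A0 d a M x hlog hm hlo hhi
  have hlaw := core_law' hm
  have hcap := core_cap hm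
  refine ⟨core x M (q.kp * P), hlaw, fun n hn => core_out n _ hn, fun n => ?_, ?_⟩
  · refine (hcap n).trans ?_
    have h9 : (2 : ℝ) ≤ Real.exp 1 := by linarith [Real.add_one_le_exp (1 : ℝ)]
    have h10 : q.kp * P ≤ κ * P := mul_le_mul_of_nonneg_right hc1b hP0.le
    calc 2 * Real.exp (q.kp * P / 2)
        ≤ Real.exp 1 * Real.exp (q.kp * P / 2) :=
          mul_le_mul_of_nonneg_right h9 (Real.exp_pos _).le
      _ = Real.exp (1 + q.kp * P / 2) := (Real.exp_add _ _).symm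
      _ ≤ Real.exp (κ * P) := Real.exp_le_exp.2 (by linarith)
  · have hH : HypF q k R κ c P (fam k R κ P) h lam r Hh N A0 d a M x :=
      ⟨hAux, hdeg, hk2, hpos, hm, hlo, hhi⟩
    have g1 := h1 P hP1' h lam r Hh N A0 d a M x hH
    have g2 := h2 P hP2' h lam r Hh N A0 d a M x hH
    have g3 := h3 P hP3' h lam r Hh N A0 d a M x hH g1
    subst hqd
    exact ⟨g1, g2, g3⟩

end Vale.Agent.P042U
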